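import Mathlib.Analysis.Matrix.Order
import Mathlib.Analysis.Matrix.PosDef
import Mathlib.LinearAlgebra.Matrix.Vec
import Mathlib.LinearAlgebra.Matrix.Kronecker

/-!
Square roots of positive definite matrices as data: the product `K₁ ⊗ K₂` is a jointly concave
function of the pair of squares, and the form `tr (Xᵀ K₁⁻¹ X K₂⁻¹)` is jointly convex.
-/

open Matrix
open scoped Kronecker

namespace Vale.Agent.P141.H704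

section sym

variable {n : Type*} [Fintype n]

/-- A symmetric matrix moves from one side of the dot product to the other. -/
theorem symm_dot {S : Matrix n n ℝ} (hS : S.IsHermitian) (x y : n → ℝ) :
    (S *ᵥ x) ⬝ᵥ y = x ⬝ᵥ (S *ᵥ y) := by
  have h : Sᵀ = S := by
    have := hS.eq
    rwa [conjTranspose_eq_transpose_of_trivial] at this
  rw [dotProduct_mulVec, ← mulVec_transpose, h]

theorem sq_dot {S : Matrix n n ℝ} (hS : S.IsHermitian) (x y : n → ℝ) :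
    (S *ᵥ x) ⬝ᵥ (S *ᵥ y) = x ⬝ᵥ ((S * S) *ᵥ y) := by
  rw [symm_dot hS, mulVec_mulVec]

variable [DecidableEq n]

/-- **The geometric mean of commuting pairs**: `Z ≤ P Q` for the average `Z` of `P± Q±`. -/
theorem gm_le {P Q Pp Qp Pm Qm : Matrix n n ℝ} (hP : P.IsHermitian)
    (hPp : Pp.IsHermitian) (hQp : Qp.IsHermitian) (hPm : Pm.IsHermitian) (hQm : Qm.IsHermitian)
    (hc : P * Q = Q * P) (hcp : Pp * Qp = Qp * Pp) (hcm : Pm * Qm = Qm * Pm)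
    (hu : IsUnit P) (hM : (P * Q).PosDef)
    (h1 : P * P = (1 / 2 : ℝ) • (Pp * Pp + Pm * Pm))
    (h2 : Q * Q = (1 / 2 : ℝ) • (Qp * Qp + Qm * Qm)) :
    (P * Q - (1 / 2 : ℝ) • (Pp * Qp + Pm * Qm)).PosSemidef := by
  have hcomm : ∀ {A B : Matrix n n ℝ}, A.IsHermitian → B.IsHermitian → A * B = B * A →
      (A * B).IsHermitian := by
    intro A B hA hB hAB
    rw [IsHermitian, conjTranspose_mul, hA.eq, hB.eq, hAB]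
  obtain ⟨Z, hZ⟩ : ∃ Z, Z = (1 / 2 : ℝ) • (Pp * Qp + Pm * Qm) := ⟨_, rfl⟩
  have hZs : Z.IsHermitian := by
    rw [hZ, IsHermitian, conjTranspose_smul, conjTranspose_add, (hcomm hPp hQp hcp).eq,
      (hcomm hPm hQm hcm).eq, star_trivial]
  rw [← hZ]
  have hT : (P * Q - Z).IsHermitian := hM.isHermitian.sub hZs
  -- the block inequality
  have hblock : ∀ x y : n → ℝ,
      0 ≤ x ⬝ᵥ ((P * P) *ᵥ x) + 2 * (x ⬝ᵥ (Z *ᵥ y)) + y ⬝ᵥ ((Q * Q) *ᵥ y) := by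
    intro x y
    have key : ∀ {A B : Matrix n n ℝ}, A.IsHermitian → B.IsHermitian →
        0 ≤ x ⬝ᵥ ((A * A) *ᵥ x) + 2 * (x ⬝ᵥ ((A * B) *ᵥ y)) + y ⬝ᵥ ((B * B) *ᵥ y) := by
      intro A B hA hB
      have h3 : 0 ≤ (A *ᵥ x + B *ᵥ y) ⬝ᵥ (A *ᵥ x + B *ᵥ y) := by
        have := dotProduct_star_self_nonneg (A *ᵥ x + B *ᵥ y)
        rwa [star_trivial] at this
      rw [add_dotProduct, dotProduct_add, dotProduct_add, sq_dot hA, sq_dot hB,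
        dotProduct_comm (B *ᵥ y), symm_dot hA, mulVec_mulVec] at h3
      linarith
    have h3 := key hPp hQp
    have h4 := key hPm hQm
    rw [h1, h2, hZ]
    simp only [smul_mulVec, add_mulVec, dotProduct_smul, dotProduct_add, smul_eq_mul]
    linarith
  refine hT.posSemidef_iff_eigenvalues_nonneg.mpr fun i => ?_
  change 0 ≤ hT.eigenvalues i
  by_contra hneg
  push Not at hneg
  obtain ⟨μ, hμ⟩ : ∃ μ, μ = hT.eigenvalues i := ⟨_, rfl⟩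
  obtain ⟨y, hy⟩ : ∃ y : n → ℝ, y = ⇑(hT.eigenvectorBasis i) := ⟨_, rfl⟩
  have hyT : (P * Q - Z) *ᵥ y = μ • y := by
    rw [hy, hμ]
    exact hT.mulVec_eigenvectorBasis i
  have hy0 : y ≠ 0 := by
    intro h0
    have h3 : hT.eigenvectorBasis i ≠ 0 := hT.eigenvectorBasis.orthonormal.ne_zero i
    apply h3
    ext j
    have := congrFun h0 j
    rw [hy] at this
    exact this
  rw [← hμ] at hneg
  -- `y = P P w`
  obtain ⟨w, hw⟩ : ∃ w : n → ℝ, y = (P * P) *ᵥ w := by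
    have hu2 : IsUnit (P * P) := hu.mul hu
    refine ⟨(P * P)⁻¹ *ᵥ y, ?_⟩
    rw [mulVec_mulVec, mul_nonsing_inv _ ((isUnit_iff_isUnit_det _).mp hu2), one_mulVec]
  have hPw0 : P *ᵥ w ≠ 0 := by
    intro h0
    apply hy0
    rw [hw, ← mulVec_mulVec, h0, mulVec_zero]
  have hZy : Z *ᵥ y = (P * Q) *ᵥ y - μ • y := by
    rw [← hyT, sub_mulVec]
    abel
  -- apply the block inequality
  obtain ⟨a, ha⟩ : ∃ a : n → ℝ, a = (P * Q) *ᵥ w - μ • w := ⟨_, rfl⟩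
  have hZa : Z *ᵥ y = (P * P) *ᵥ a := by
    rw [hZy, hw, ha, mulVec_sub, mulVec_smul, mulVec_mulVec, mulVec_mulVec]
    congr 2
    simp only [mul_assoc]
    rw [← mul_assoc Q P P, ← hc, mul_assoc P Q P, ← hc]
  have hb := hblock (-a) y
  rw [hZa] at hb
  simp only [neg_dotProduct, mulVec_neg, dotProduct_neg, neg_neg] at hb
  -- compute
  have e1 : y ⬝ᵥ ((Q * Q) *ᵥ y) =
      ((P * Q) *ᵥ w) ⬝ᵥ ((P * P) *ᵥ ((P * Q) *ᵥ w)) := by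
    have h3 : ((P * Q) *ᵥ w) ⬝ᵥ ((P * P) *ᵥ ((P * Q) *ᵥ w)) =
        w ⬝ᵥ ((P * Q) *ᵥ ((P * P) *ᵥ ((P * Q) *ᵥ w))) := symm_dot hM.isHermitian _ _
    have h4 : y ⬝ᵥ ((Q * Q) *ᵥ y) = w ⬝ᵥ ((P * P) *ᵥ ((Q * Q) *ᵥ ((P * P) *ᵥ w))) := by
      rw [hw]
      exact symm_dot (hcomm hP hP rfl) _ _
    rw [h3, h4]
    simp only [mulVec_mulVec]
    congr 2
    have hcm' : Commute P Q := hc
    calc P * P * (Q * Q * (P * P)) = (P * P) * ((Q * Q) * (P * P)) := rfl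
      _ = (P * P) * ((P * P) * (Q * Q)) := by
          rw [((hcm'.mul_left hcm').mul_right (hcm'.mul_left hcm')).eq]
      _ = P * Q * (P * P * (P * Q)) := by
          have h5 : Commute (P * Q) (P * P) :=
            ((Commute.refl P).mul_right (Commute.refl P)).mul_left
              ((hcm'.symm).mul_right (hcm'.symm))
          rw [← mul_assoc (P * Q), h5.eq, mul_assoc (P * P) (P * Q)]
          congr 1
          rw [mul_assoc P Q, ← mul_assoc Q P Q, ← hc]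
          simp only [mul_assoc]
  have e2 : a ⬝ᵥ ((P * P) *ᵥ a) = ((P * Q) *ᵥ w) ⬝ᵥ ((P * P) *ᵥ ((P * Q) *ᵥ w)) -
      2 * μ * ((P *ᵥ w) ⬝ᵥ ((P * Q) *ᵥ (P *ᵥ w))) + μ ^ 2 * ((P *ᵥ w) ⬝ᵥ (P *ᵥ w)) := by
    have hPP : (P * P).IsHermitian := hcomm hP hP rfl
    have h3 : (P *ᵥ w) ⬝ᵥ ((P * Q) *ᵥ (P *ᵥ w)) = w ⬝ᵥ ((P * P) *ᵥ ((P * Q) *ᵥ w)) := by
      rw [symm_dot hP]
      simp only [mulVec_mulVec]
      congr 2
      have h6 : P * (P * Q * P) = P * (P * (Q * P)) := by simp only [mul_assoc]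
      rw [h6, ← hc]
      simp only [mul_assoc]
    have h4 : (P *ᵥ w) ⬝ᵥ (P *ᵥ w) = w ⬝ᵥ ((P * P) *ᵥ w) := sq_dot hP _ _
    have h5 : ((P * Q) *ᵥ w) ⬝ᵥ ((P * P) *ᵥ w) = w ⬝ᵥ ((P * P) *ᵥ ((P * Q) *ᵥ w)) := by
      rw [dotProduct_comm]
      exact symm_dot hPP _ _
    rw [h3, h4, ha]
    simp only [mulVec_sub, mulVec_smul, sub_dotProduct, dotProduct_sub, smul_dotProduct,
      dotProduct_smul, smul_eq_mul]
    rw [h5]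
    ring
  have e3 : 0 < (P *ᵥ w) ⬝ᵥ ((P * Q) *ᵥ (P *ᵥ w)) := by
    have := hM.dotProduct_mulVec_pos hPw0
    rwa [star_trivial] at this
  have e4 : 0 ≤ (P *ᵥ w) ⬝ᵥ (P *ᵥ w) := by
    have := dotProduct_star_self_nonneg (P *ᵥ w)
    rwa [star_trivial] at this
  have e5 : y ⬝ᵥ ((P * P) *ᵥ a) = a ⬝ᵥ ((P * P) *ᵥ y) := by
    rw [dotProduct_comm]
    exact symm_dot (hcomm hP hP rfl) _ _
  rw [e1] at hb
  nlinarith [mul_pos_of_neg_of_neg hneg hneg, mul_neg_of_neg_of_pos hneg e3,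
    mul_nonneg (sq_nonneg μ) e4]

/-- The variational formula for the inverse. -/
theorem inv_ge {Z : Matrix n n ℝ} (hZ : Z.PosDef) (a y : n → ℝ) :
    2 * (a ⬝ᵥ y) - y ⬝ᵥ (Z *ᵥ y) ≤ a ⬝ᵥ (Z⁻¹ *ᵥ a) := by
  have hu := (isUnit_iff_isUnit_det _).mp hZ.isUnit
  have h1 : Z *ᵥ (Z⁻¹ *ᵥ a) = a := by rw [mulVec_mulVec, mul_nonsing_inv _ hu, one_mulVec]
  have h2 : 0 ≤ (Z⁻¹ *ᵥ a - y) ⬝ᵥ (Z *ᵥ (Z⁻¹ *ᵥ a - y)) := by
    have := hZ.posSemidef.dotProduct_mulVec_nonneg (Z⁻¹ *ᵥ a - y)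
    rwa [star_trivial] at this
  rw [mulVec_sub, h1, sub_dotProduct, dotProduct_sub, dotProduct_sub] at h2
  have h3 : (Z⁻¹ *ᵥ a) ⬝ᵥ (Z *ᵥ y) = a ⬝ᵥ y := by
    rw [← symm_dot hZ.isHermitian, h1]
  rw [h3, dotProduct_comm (Z⁻¹ *ᵥ a), dotProduct_comm y a] at h2
  linarith

/-- **The form of the inverse is jointly convex**, for an operator `M` which dominates the
average. -/
theorem inv_conv {M Zp Zm : Matrix n n ℝ} (hM : M.PosDef) (hZp : Zp.PosDef) (hZm : Zm.PosDef)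
    (h : (M - (1 / 2 : ℝ) • (Zp + Zm)).PosSemidef) {x xp xm : n → ℝ}
    (hx : x = (1 / 2 : ℝ) • (xp + xm)) :
    x ⬝ᵥ (M⁻¹ *ᵥ x) ≤ (1 / 2) * (xp ⬝ᵥ (Zp⁻¹ *ᵥ xp) + xm ⬝ᵥ (Zm⁻¹ *ᵥ xm)) := by
  have hu := (isUnit_iff_isUnit_det _).mp hM.isUnit
  obtain ⟨y, hy⟩ : ∃ y, y = M⁻¹ *ᵥ x := ⟨_, rfl⟩
  have h1 := inv_ge hZp xp y
  have h2 := inv_ge hZm xm y
  have h3 : 0 ≤ y ⬝ᵥ ((M - (1 / 2 : ℝ) • (Zp + Zm)) *ᵥ y) := by
    have := h.dotProduct_mulVec_nonneg y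
    rwa [star_trivial] at this
  have h4 : M *ᵥ y = x := by rw [hy, mulVec_mulVec, mul_nonsing_inv _ hu, one_mulVec]
  rw [sub_mulVec, smul_mulVec, add_mulVec, dotProduct_sub, dotProduct_smul, dotProduct_add, h4,
    smul_eq_mul] at h3
  have h5 : x ⬝ᵥ y = (1 / 2) * (xp ⬝ᵥ y + xm ⬝ᵥ y) := by
    rw [hx, smul_dotProduct, add_dotProduct, smul_eq_mul]
  rw [← hy]
  rw [dotProduct_comm y x] at h3
  linarith

end sym

section ando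

variable {ι κ : Type*} [Fintype ι] [DecidableEq ι] [Fintype κ] [DecidableEq κ]

theorem vec_form {A : Matrix ι ι ℝ} {B : Matrix κ κ ℝ} (hB : B.IsHermitian) (X : Matrix ι κ ℝ) :
    vec X ⬝ᵥ ((B ⊗ₖ A)⁻¹ *ᵥ vec X) = (Xᵀ * (A⁻¹ * X * B⁻¹)).trace := by
  have h : (B⁻¹)ᵀ = B⁻¹ := by
    have := hB.inv.eq
    rwa [conjTranspose_eq_transpose_of_trivial] at this
  rw [inv_kronecker, kronecker_mulVec_vec, vec_dotProduct_vec, h]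

/-- **The product of square roots is jointly concave**: the average of `K₂± ⊗ K₁±` is at most
`K₂ ⊗ K₁`. -/
theorem kron_conc {K₁ K₁p K₁m : Matrix ι ι ℝ} {K₂ K₂p K₂m : Matrix κ κ ℝ}
    (h₁ : K₁.PosDef) (h₁p : K₁p.PosDef) (h₁m : K₁m.PosDef)
    (h₂ : K₂.PosDef) (h₂p : K₂p.PosDef) (h₂m : K₂m.PosDef)
    (hs₁ : K₁ * K₁ = (1 / 2 : ℝ) • (K₁p * K₁p + K₁m * K₁m))
    (hs₂ : K₂ * K₂ = (1 / 2 : ℝ) • (K₂p * K₂p + K₂m * K₂m)) :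
    (K₂ ⊗ₖ K₁ - (1 / 2 : ℝ) • (K₂p ⊗ₖ K₁p + K₂m ⊗ₖ K₁m)).PosSemidef := by
  have e1 : ∀ (A : Matrix ι ι ℝ) (B : Matrix κ κ ℝ),
      ((1 : Matrix κ κ ℝ) ⊗ₖ A) * (B ⊗ₖ (1 : Matrix ι ι ℝ)) = B ⊗ₖ A := by
    intro A B
    rw [← mul_kronecker_mul, one_mul, mul_one]
  have e2 : ∀ (A : Matrix ι ι ℝ) (B : Matrix κ κ ℝ),
      (B ⊗ₖ (1 : Matrix ι ι ℝ)) * ((1 : Matrix κ κ ℝ) ⊗ₖ A) = B ⊗ₖ A := by
    intro A B
    rw [← mul_kronecker_mul, one_mul, mul_one]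
  have e3 : ∀ {A : Matrix ι ι ℝ}, A.IsHermitian → ((1 : Matrix κ κ ℝ) ⊗ₖ A).IsHermitian := by
    intro A hA
    rw [IsHermitian, conjTranspose_kronecker, hA.eq, conjTranspose_one]
  have e4 : ∀ {B : Matrix κ κ ℝ}, B.IsHermitian → (B ⊗ₖ (1 : Matrix ι ι ℝ)).IsHermitian := by
    intro B hB
    rw [IsHermitian, conjTranspose_kronecker, hB.eq, conjTranspose_one]
  have h := gm_le (P := (1 : Matrix κ κ ℝ) ⊗ₖ K₁) (Q := K₂ ⊗ₖ (1 : Matrix ι ι ℝ))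
    (Pp := (1 : Matrix κ κ ℝ) ⊗ₖ K₁p) (Qp := K₂p ⊗ₖ (1 : Matrix ι ι ℝ))
    (Pm := (1 : Matrix κ κ ℝ) ⊗ₖ K₁m) (Qm := K₂m ⊗ₖ (1 : Matrix ι ι ℝ))
    (e3 h₁.isHermitian) (e3 h₁p.isHermitian) (e4 h₂p.isHermitian) (e3 h₁m.isHermitian)
    (e4 h₂m.isHermitian) (by rw [e1, e2]) (by rw [e1, e2]) (by rw [e1, e2])
    ((PosDef.one).kronecker h₁).isUnit (by rw [e1]; exact h₂.kronecker h₁)
    (by
      rw [← mul_kronecker_mul, ← mul_kronecker_mul, ← mul_kronecker_mul, one_mul, hs₁,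
        kronecker_smul, kronecker_add])
    (by
      rw [← mul_kronecker_mul, ← mul_kronecker_mul, ← mul_kronecker_mul, one_mul, hs₂,
        smul_kronecker, add_kronecker])
  rwa [e1, e1, e1] at h

/-- **Joint convexity** of `tr (Xᵀ K₁⁻¹ X K₂⁻¹)` in `X` and the squares of `K₁`, `K₂`. -/
theorem ando {K₁ K₁p K₁m : Matrix ι ι ℝ} {K₂ K₂p K₂m : Matrix κ κ ℝ}
    (h₁ : K₁.PosDef) (h₁p : K₁p.PosDef) (h₁m : K₁m.PosDef)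
    (h₂ : K₂.PosDef) (h₂p : K₂p.PosDef) (h₂m : K₂m.PosDef)
    (hs₁ : K₁ * K₁ = (1 / 2 : ℝ) • (K₁p * K₁p + K₁m * K₁m))
    (hs₂ : K₂ * K₂ = (1 / 2 : ℝ) • (K₂p * K₂p + K₂m * K₂m))
    {X Xp Xm : Matrix ι κ ℝ} (hX : X = (1 / 2 : ℝ) • (Xp + Xm)) :
    (Xᵀ * (K₁⁻¹ * X * K₂⁻¹)).trace ≤
      (1 / 2) * ((Xpᵀ * (K₁p⁻¹ * Xp * K₂p⁻¹)).trace + (Xmᵀ * (K₁m⁻¹ * Xm * K₂m⁻¹)).trace) := by
  rw [← vec_form h₂.isHermitian, ← vec_form h₂p.isHermitian, ← vec_form h₂m.isHermitian]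
  refine inv_conv (h₂.kronecker h₁) (h₂p.kronecker h₁p) (h₂m.kronecker h₁m)
    (kron_conc h₁ h₁p h₁m h₂ h₂p h₂m hs₁ hs₂) ?_
  rw [hX, vec_smul, vec_add]

/-- `ando` in the letters `K * K = l + G`. -/
theorem ando' {l₁ l₂ : ℝ} {G₁ D₁ K₁ K₁p K₁m : Matrix ι ι ℝ} {G₂ D₂ K₂ K₂p K₂m : Matrix κ κ ℝ}
    (h₁ : K₁.PosDef) (h₁p : K₁p.PosDef) (h₁m : K₁m.PosDef)
    (h₂ : K₂.PosDef) (h₂p : K₂p.PosDef) (h₂m : K₂m.PosDef)
    (s₁ : K₁ * K₁ = l₁ • (1 : Matrix ι ι ℝ) + G₁)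
    (s₁p : K₁p * K₁p = l₁ • (1 : Matrix ι ι ℝ) + (G₁ + D₁))
    (s₁m : K₁m * K₁m = l₁ • (1 : Matrix ι ι ℝ) + (G₁ - D₁))
    (s₂ : K₂ * K₂ = l₂ • (1 : Matrix κ κ ℝ) + G₂)
    (s₂p : K₂p * K₂p = l₂ • (1 : Matrix κ κ ℝ) + (G₂ + D₂))
    (s₂m : K₂m * K₂m = l₂ • (1 : Matrix κ κ ℝ) + (G₂ - D₂))
    {X Xp Xm : Matrix ι κ ℝ} (hX : X = (1 / 2 : ℝ) • (Xp + Xm)) :
    (Xᵀ * (K₁⁻¹ * X * K₂⁻¹)).trace ≤
      (1 / 2) * ((Xpᵀ * (K₁p⁻¹ * Xp * K₂p⁻¹)).trace + (Xmᵀ * (K₁m⁻¹ * Xm * K₂m⁻¹)).trace) := by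
  refine ando h₁ h₁p h₁m h₂ h₂p h₂m ?_ ?_ hX
  · rw [s₁, s₁p, s₁m]
    module
  · rw [s₂, s₂p, s₂m]
    module

end ando

end Vale.Agent.P141.H704
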