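import Vale.Agent.P141.H37.Kkt

/-!
# P141, line (B'): the potential of a pair of convex sets (Hilbert part)

`E` a real inner product space, `Ks`, `Kc` convex sets.

* `supp K u`: the support function, `Lv K h = sup_(V ∈ K) (2 ⟪h, V⟫ - ‖V‖ ^ 2)`, which is
  `‖h‖ ^ 2 - dist ^ 2 (h, K)` (`Lv_eq`);
* `val Ks Kc h s c = ‖h - s - c‖ ^ 2 + 2 supp Ks s + 2 supp Kc c`;
* `val_ge`: strong convexity `Lv (Ks ∩ Kc) h + ‖(h - s - c) - V‖ ^ 2 ≤ val Ks Kc h s c`;
* `Lv_sub_le`: `Lv K (h - s) ≤ Lv K h + 2 supp Ks s`;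
* `birth`: one step of the scalars;
* `exists_pair`: the KKT pair of the projection on `Ks ∩ Kc`, with active tests;
* `Pair.refresh`: the potential after a refresh.
-/

namespace Vale.Agent.P141.H704.Phi

open Set RealInnerProductSpace
open Vale.Agent.P141.H37

variable {E : Type*} [NormedAddCommGroup E] [InnerProductSpace ℝ E]

/-- The support function of `K`. -/
noncomputable def supp (K : Set E) (u : E) : ℝ := sSup ((fun V => ⟪u, V⟫) '' K)

/-- `‖h‖ ^ 2 - dist ^ 2 (h, K)`, as a supremum. -/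
noncomputable def Lv (K : Set E) (h : E) : ℝ := sSup ((fun V => 2 * ⟪h, V⟫ - ‖V‖ ^ 2) '' K)

/-- The value of a decomposition. -/
noncomputable def val (Ks Kc : Set E) (h s c : E) : ℝ :=
  ‖h - s - c‖ ^ 2 + 2 * supp Ks s + 2 * supp Kc c

section supp

variable {K K' : Set E} {u v V : E}

theorem bdd_image (hK : Bornology.IsBounded K) (u : E) : BddAbove ((fun V => ⟪u, V⟫) '' K) := by
  obtain ⟨M, hM⟩ := hK.exists_norm_le
  refine ⟨‖u‖ * M, ?_⟩
  rintro _ ⟨V, hV, rfl⟩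
  exact (real_inner_le_norm u V).trans (mul_le_mul_of_nonneg_left (hM V hV) (norm_nonneg u))

theorem le_supp (hK : Bornology.IsBounded K) (hV : V ∈ K) (u : E) : ⟪u, V⟫ ≤ supp K u :=
  le_csSup (bdd_image hK u) ⟨V, hV, rfl⟩

theorem supp_le (h0 : K.Nonempty) {b : ℝ} (h : ∀ V ∈ K, ⟪u, V⟫ ≤ b) : supp K u ≤ b := by
  refine csSup_le (h0.image _) ?_
  rintro _ ⟨V, hV, rfl⟩
  exact h V hV

theorem supp_nonneg (hK : Bornology.IsBounded K) (h0 : (0 : E) ∈ K) (u : E) : 0 ≤ supp K u := by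
  have := le_supp hK h0 u
  rwa [inner_zero_right] at this

theorem supp_add_le (hK : Bornology.IsBounded K) (h0 : K.Nonempty) (u v : E) :
    supp K (u + v) ≤ supp K u + supp K v := by
  refine supp_le h0 fun V hV => ?_
  rw [inner_add_left]
  exact add_le_add (le_supp hK hV u) (le_supp hK hV v)

theorem supp_neg (hK : Bornology.IsBounded K) (h0 : K.Nonempty) (hs : ∀ V ∈ K, -V ∈ K) (u : E) :
    supp K (-u) = supp K u := by
  have key : ∀ u : E, supp K (-u) ≤ supp K u := fun u => by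
    refine supp_le h0 fun V hV => ?_
    have := le_supp hK (hs V hV) u
    rwa [inner_neg_right, ← inner_neg_left] at this
  refine le_antisymm (key u) ?_
  have := key (-u)
  rwa [neg_neg] at this

theorem supp_zero (h0 : K.Nonempty) : supp K (0 : E) = 0 := by
  have : (fun V : E => ⟪(0 : E), V⟫) '' K = {0} := by
    ext r
    simp only [inner_zero_left, mem_image, mem_singleton_iff]
    constructor
    · rintro ⟨_, _, h⟩; exact h.symm
    · rintro rfl; exact ⟨h0.some, h0.some_mem, rfl⟩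
  unfold supp
  rw [this, csSup_singleton]

theorem supp_smul_le (hK : Bornology.IsBounded K) (h0 : K.Nonempty) {r : ℝ} (hr : 0 ≤ r) (u : E) :
    supp K (r • u) ≤ r * supp K u := by
  refine supp_le h0 fun V hV => ?_
  rw [real_inner_smul_left]
  exact mul_le_mul_of_nonneg_left (le_supp hK hV u) hr

theorem supp_mono (hK : Bornology.IsBounded K') (h0 : K.Nonempty) (h : K ⊆ K') (u : E) :
    supp K u ≤ supp K' u :=
  supp_le h0 fun _ hV => le_supp hK (h hV) u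

/-- The support function at an element of the normal cone. -/
theorem supp_of_var (hK : Bornology.IsBounded K) (hV : V ∈ K) (h : ∀ W ∈ K, ⟪u, W - V⟫ ≤ 0) :
    supp K u = ⟪u, V⟫ := by
  refine le_antisymm (supp_le ⟨V, hV⟩ fun W hW => ?_) (le_supp hK hV u)
  have := h W hW
  rw [inner_sub_right] at this
  linarith

theorem supp_sum_le {ι : Type*} (hK : Bornology.IsBounded K) (h0 : K.Nonempty) (t : Finset ι)
    (f : ι → E) : supp K (∑ i ∈ t, f i) ≤ ∑ i ∈ t, supp K (f i) := by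
  classical
  induction t using Finset.induction_on with
  | empty => simp [supp_zero h0]
  | insert a t ha ih =>
    rw [Finset.sum_insert ha, Finset.sum_insert ha]
    exact (supp_add_le hK h0 _ _).trans (by linarith)

end supp

section Lv

variable {K Ks Kc : Set E} {h V W s c : E}

theorem bdd_image' (h : E) (K : Set E) : BddAbove ((fun V => 2 * ⟪h, V⟫ - ‖V‖ ^ 2) '' K) := by
  refine ⟨‖h‖ ^ 2, ?_⟩
  rintro _ ⟨V, _, rfl⟩
  have h1 : ‖h - V‖ ^ 2 = ‖h‖ ^ 2 - 2 * ⟪h, V⟫ + ‖V‖ ^ 2 := norm_sub_sq_real h V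
  nlinarith [sq_nonneg ‖h - V‖]

theorem le_Lv (hV : V ∈ K) (h : E) : 2 * ⟪h, V⟫ - ‖V‖ ^ 2 ≤ Lv K h :=
  le_csSup (bdd_image' h K) ⟨V, hV, rfl⟩

theorem Lv_le (h0 : K.Nonempty) {b : ℝ} (hb : ∀ V ∈ K, 2 * ⟪h, V⟫ - ‖V‖ ^ 2 ≤ b) : Lv K h ≤ b := by
  refine csSup_le (h0.image _) ?_
  rintro _ ⟨V, hV, rfl⟩
  exact hb V hV

theorem Lv_nonneg (h0 : (0 : E) ∈ K) (h : E) : 0 ≤ Lv K h := by
  have := le_Lv h0 h
  simpa using this

theorem Lv_le_sq (h0 : K.Nonempty) (h : E) : Lv K h ≤ ‖h‖ ^ 2 := by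
  refine Lv_le h0 fun V _ => ?_
  have h1 : ‖h - V‖ ^ 2 = ‖h‖ ^ 2 - 2 * ⟪h, V⟫ + ‖V‖ ^ 2 := norm_sub_sq_real h V
  nlinarith [sq_nonneg ‖h - V‖]

/-- `Lv` at the projection. -/
theorem Lv_eq' (hp : IsProj K h V) : Lv K h = 2 * ⟪h, V⟫ - ‖V‖ ^ 2 := by
  refine le_antisymm (Lv_le ⟨V, hp.mem⟩ fun W hW => ?_) (le_Lv hp.mem h)
  have h1 := hp.le_dist hW
  have h2 : ‖h - V‖ ^ 2 = ‖h‖ ^ 2 - 2 * ⟪h, V⟫ + ‖V‖ ^ 2 := norm_sub_sq_real h V
  have h3 : ‖h - W‖ ^ 2 = ‖h‖ ^ 2 - 2 * ⟪h, W⟫ + ‖W‖ ^ 2 := norm_sub_sq_real h W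
  linarith

/-- `Lv K h = ‖h‖ ^ 2 - dist ^ 2 (h, K)`. -/
theorem Lv_eq (hp : IsProj K h V) : Lv K h = ‖h‖ ^ 2 - ‖h - V‖ ^ 2 := by
  have h2 : ‖h - V‖ ^ 2 = ‖h‖ ^ 2 - 2 * ⟪h, V⟫ + ‖V‖ ^ 2 := norm_sub_sq_real h V
  rw [Lv_eq' hp]
  linarith

/-- Strong concavity: every candidate loses its distance to the projection. -/
theorem Lv_gap (hp : IsProj K h V) (hW : W ∈ K) :
    2 * ⟪h, W⟫ - ‖W‖ ^ 2 + ‖V - W‖ ^ 2 ≤ Lv K h := by
  have h1 := hp.pyth hW
  have h3 : ‖h - W‖ ^ 2 = ‖h‖ ^ 2 - 2 * ⟪h, W⟫ + ‖W‖ ^ 2 := norm_sub_sq_real h W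
  rw [Lv_eq hp]
  linarith

/-- The value of a decomposition against an element of the two sets. -/
theorem val_eq (h s c V : E) : ‖h - s - c‖ ^ 2 + 2 * ⟪s, V⟫ + 2 * ⟪c, V⟫ =
    2 * ⟪h, V⟫ - ‖V‖ ^ 2 + ‖h - s - c - V‖ ^ 2 := by
  have h1 : ‖h - s - c - V‖ ^ 2 = ‖h - s - c‖ ^ 2 - 2 * ⟪h - s - c, V⟫ + ‖V‖ ^ 2 :=
    norm_sub_sq_real _ _
  rw [h1, inner_sub_left, inner_sub_left]
  ring

/-- **Strong convexity** of the value. -/
theorem val_ge (hs : Bornology.IsBounded Ks) (hc : Bornology.IsBounded Kc)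
    (hp : IsProj (Ks ∩ Kc) h V) (s c : E) :
    Lv (Ks ∩ Kc) h + ‖h - s - c - V‖ ^ 2 ≤ val Ks Kc h s c := by
  rw [Lv_eq' hp, ← val_eq]
  have h1 := le_supp hs hp.mem.1 s
  have h2 := le_supp hc hp.mem.2 c
  unfold val
  linarith

theorem Lv_le_val (hs : Bornology.IsBounded Ks) (hc : Bornology.IsBounded Kc)
    (h0 : (Ks ∩ Kc).Nonempty) (h s c : E) : Lv (Ks ∩ Kc) h ≤ val Ks Kc h s c := by
  refine Lv_le h0 fun V hV => ?_
  have h1 := le_supp hs hV.1 s
  have h2 := le_supp hc hV.2 c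
  have h3 := val_eq h s c V
  unfold val
  nlinarith [sq_nonneg ‖h - s - c - V‖]

/-- The triangle inequality of the potential: the scalars of mass `supp Ks s` are thrown away. -/
theorem Lv_sub_le (hs : Bornology.IsBounded Ks) (hsym : ∀ V ∈ Ks, -V ∈ Ks) (hsub : K ⊆ Ks)
    (h0 : K.Nonempty) (h s : E) : Lv K (h - s) ≤ Lv K h + 2 * supp Ks s := by
  refine Lv_le h0 fun V hV => ?_
  have h1 := le_Lv hV h
  have h2 := le_supp hs (hsub hV) (-s)
  rw [supp_neg hs (h0.mono hsub) hsym, inner_neg_left] at h2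
  rw [inner_sub_left]
  linarith

/-- The other direction. -/
theorem Lv_le_sub (hs : Bornology.IsBounded Ks) (hsub : K ⊆ Ks)
    (h0 : K.Nonempty) (h s : E) : Lv K h ≤ Lv K (h - s) + 2 * supp Ks s := by
  refine Lv_le h0 fun V hV => ?_
  have h1 := le_Lv hV (h - s)
  have h2 := le_supp hs (hsub hV) s
  rw [inner_sub_left] at h1
  linarith

end Lv

section birth

variable {Ks : Set E} {G V : E}

/-- **One birth of the scalars**: `V` = projection of `G` on `Ks`. -/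
theorem birth (hs : Bornology.IsBounded Ks) (hp : IsProj Ks G V) :
    ‖V‖ ^ 2 + 2 * supp Ks (G - V) + ‖G - V‖ ^ 2 = ‖G‖ ^ 2 := by
  rw [supp_of_var hs hp.mem hp.var]
  have : G = (G - V) + V := by abel
  have h1 : ‖G‖ ^ 2 = ‖G - V‖ ^ 2 + 2 * ⟪G - V, V⟫ + ‖V‖ ^ 2 := by
    conv_lhs => rw [this, norm_add_sq_real]
  linarith

end birth

section pair

/-- **A KKT pair** of `h`: `h = V + s + c`, `s`, `c` normal to `Ks`, `Kc` at `V`. -/
structure Pair (Ks Kc : Set E) (h V s c : E) : Prop where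
  eq : h = V + s + c
  mem_s : V ∈ Ks
  mem_c : V ∈ Kc
  nor_s : ∀ W ∈ Ks, ⟪s, W - V⟫ ≤ 0
  nor_c : ∀ W ∈ Kc, ⟪c, W - V⟫ ≤ 0

namespace Pair

variable {Ks Kc : Set E} {h V s c : E}

theorem isProj (p : Pair Ks Kc h V s c) : IsProj (Ks ∩ Kc) h V := by
  refine ⟨⟨p.mem_s, p.mem_c⟩, fun W hW => ?_⟩
  have h1 : h - V = s + c := by rw [p.eq]; abel
  rw [h1, inner_add_left]
  exact add_nonpos (p.nor_s W hW.1) (p.nor_c W hW.2)

/-- After the refresh, `V` is still the projection. -/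
theorem isProj' (p : Pair Ks Kc h V s c) : IsProj (Ks ∩ Kc) (h - s) V := by
  refine ⟨⟨p.mem_s, p.mem_c⟩, fun W hW => ?_⟩
  have h1 : h - s - V = c := by rw [p.eq]; abel
  rw [h1]
  exact p.nor_c W hW.2

theorem supp_s (p : Pair Ks Kc h V s c) (hs : Bornology.IsBounded Ks) : supp Ks s = ⟪s, V⟫ :=
  supp_of_var hs p.mem_s p.nor_s

theorem supp_c (p : Pair Ks Kc h V s c) (hc : Bornology.IsBounded Kc) : supp Kc c = ⟪c, V⟫ :=
  supp_of_var hc p.mem_c p.nor_c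

/-- The pair realises the minimum of the value. -/
theorem val_pair (p : Pair Ks Kc h V s c) (hs : Bornology.IsBounded Ks)
    (hc : Bornology.IsBounded Kc) : val Ks Kc h s c = Lv (Ks ∩ Kc) h := by
  rw [Lv_eq' p.isProj]
  unfold val
  rw [p.supp_s hs, p.supp_c hc]
  have h1 := val_eq h s c V
  have h2 : h - s - c - V = 0 := by rw [p.eq]; abel
  rw [h2, norm_zero] at h1
  linarith

/-- **Refresh**: the new potential is `Lv - 2 supp s`. -/
theorem refresh (p : Pair Ks Kc h V s c) (hs : Bornology.IsBounded Ks)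
    (hc : Bornology.IsBounded Kc) :
    ‖V‖ ^ 2 + 2 * supp Kc c + 2 * supp Ks s = Lv (Ks ∩ Kc) h := by
  rw [← p.val_pair hs hc]
  unfold val
  have h2 : h - s - c = V := by rw [p.eq]; abel
  rw [h2]
  ring

/-- After the refresh the potential is optimal for `h - s`. -/
theorem after (p : Pair Ks Kc h V s c) (hc : Bornology.IsBounded Kc) :
    ‖V‖ ^ 2 + 2 * supp Kc c = Lv (Ks ∩ Kc) (h - s) := by
  rw [Lv_eq' p.isProj', p.supp_c hc]
  have h2 : h - s = V + c := by rw [p.eq]; abel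
  rw [h2, inner_add_left, real_inner_self_eq_norm_sq]
  ring

end Pair

variable [FiniteDimensional ℝ E]

/-- **Existence of the pair**, with active tests: `Ks`, `Kc` are cut out by two compact families of
tests with positive continuous bounds. -/
theorem exists_pair {Ss Sc : Set E} {bs bc : E → ℝ} (hSs : IsCompact Ss) (hSc : IsCompact Sc)
    (hbs : ContinuousOn bs Ss) (hbc : ContinuousOn bc Sc) (hps : ∀ a ∈ Ss, 0 < bs a)
    (hpc : ∀ a ∈ Sc, 0 < bc a) (h : E) : ∃ (V s c : E),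
      Pair (Kset Ss bs) (Kset Sc bc) h V s c ∧
      (∃ (ι : Type) (_ : Fintype ι) (m : ι → ℝ) (a : ι → E), (∀ i, 0 ≤ m i) ∧
        (∀ i, a i ∈ Act Ss bs V) ∧ s = ∑ i, m i • a i ∧ supp (Kset Ss bs) s ≤ ∑ i, m i * bs (a i)) ∧
      (∃ (ι : Type) (_ : Fintype ι) (m : ι → ℝ) (a : ι → E), (∀ i, 0 ≤ m i) ∧
        (∀ i, a i ∈ Act Sc bc V) ∧ c = ∑ i, m i • a i ∧
          supp (Kset Sc bc) c ≤ ∑ i, m i * bc (a i)) := by
  classical
  -- the normalised tests
  set T1 : Set E := (fun a => (bs a)⁻¹ • a) '' Ss with hT1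
  set T2 : Set E := (fun a => (bc a)⁻¹ • a) '' Sc with hT2
  have c1 : IsCompact T1 := hSs.image_of_continuousOn
    ((hbs.inv₀ fun a ha => (hps a ha).ne').smul continuousOn_id)
  have c2 : IsCompact T2 := hSc.image_of_continuousOn
    ((hbc.inv₀ fun a ha => (hpc a ha).ne').smul continuousOn_id)
  have mem1 : ∀ W : E, W ∈ Kset T1 (fun _ => 1) ↔ W ∈ Kset Ss bs := by
    intro W
    constructor
    · intro hW a ha
      have h1 := hW _ ⟨a, ha, rfl⟩
      rw [real_inner_smul_right, inv_mul_le_iff₀ (hps a ha), mul_one] at h1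
      exact h1
    · rintro hW _ ⟨a, ha, rfl⟩
      show ⟪W, (bs a)⁻¹ • a⟫ ≤ 1
      rw [real_inner_smul_right, inv_mul_le_iff₀ (hps a ha), mul_one]
      exact hW a ha
  have mem2 : ∀ W : E, W ∈ Kset T2 (fun _ => 1) ↔ W ∈ Kset Sc bc := by
    intro W
    constructor
    · intro hW a ha
      have h1 := hW _ ⟨a, ha, rfl⟩
      rw [real_inner_smul_right, inv_mul_le_iff₀ (hpc a ha), mul_one] at h1
      exact h1
    · rintro hW _ ⟨a, ha, rfl⟩
      show ⟪W, (bc a)⁻¹ • a⟫ ≤ 1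
      rw [real_inner_smul_right, inv_mul_le_iff₀ (hpc a ha), mul_one]
      exact hW a ha
  have mem12 : ∀ W : E, W ∈ Kset (T1 ∪ T2) (fun _ => 1) ↔ W ∈ Kset Ss bs ∧ W ∈ Kset Sc bc := by
    intro W
    rw [← mem1, ← mem2]
    constructor
    · intro hW
      exact ⟨fun a ha => hW a (Or.inl ha), fun a ha => hW a (Or.inr ha)⟩
    · rintro ⟨hW1, hW2⟩ a (ha | ha)
      · exact hW1 a ha
      · exact hW2 a ha
  obtain ⟨V, hV⟩ := exists_projK (S := T1 ∪ T2) (c := fun _ => 1) (fun _ _ => zero_le_one) h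
  obtain ⟨ι, hι, m, a, hm, ha, he⟩ := kkt (c1.union c2) continuousOn_const
    (fun _ _ => zero_lt_one) hV
  have hVm := (mem12 V).mp hV.mem
  -- every active test of the union is an active test of one of the two
  have hsplit : ∀ i, ∃ b : E, (b ∈ Act Ss bs V ∧ a i ∈ T1 ∧ a i = (bs b)⁻¹ • b) ∨
      (b ∈ Act Sc bc V ∧ a i ∉ T1 ∧ a i = (bc b)⁻¹ • b) := by
    intro i
    by_cases hi : a i ∈ T1
    · obtain ⟨b, hb, hb'⟩ := hi
      refine ⟨b, Or.inl ⟨⟨hb, ?_⟩, ⟨b, hb, hb'⟩, hb'.symm⟩⟩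
      have h1 := (ha i).2
      rw [← hb', real_inner_smul_right] at h1
      have h2 := (hps b hb).ne'
      field_simp at h1
      linarith
    · have h2 : a i ∈ T2 := ((ha i).1).resolve_left hi
      obtain ⟨b, hb, hb'⟩ := h2
      refine ⟨b, Or.inr ⟨⟨hb, ?_⟩, hi, hb'.symm⟩⟩
      have h1 := (ha i).2
      rw [← hb', real_inner_smul_right] at h1
      have h2 := (hpc b hb).ne'
      field_simp at h1
      linarith
  choose b hb using hsplit
  have hb1 : ∀ i, a i ∈ T1 → b i ∈ Act Ss bs V ∧ a i = (bs (b i))⁻¹ • b i := fun i hi => by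
    rcases hb i with h | h
    · exact ⟨h.1, h.2.2⟩
    · exact absurd hi h.2.1
  have hb2 : ∀ i, a i ∉ T1 → b i ∈ Act Sc bc V ∧ a i = (bc (b i))⁻¹ • b i := fun i hi => by
    rcases hb i with h | h
    · exact absurd h.2.1 hi
    · exact ⟨h.1, h.2.2⟩
  let I1 : Type := {i : ι // a i ∈ T1}
  let I2 : Type := {i : ι // a i ∉ T1}
  let m1 : I1 → ℝ := fun i => m i * (bs (b i))⁻¹
  let m2 : I2 → ℝ := fun i => m i * (bc (b i))⁻¹
  have hm1 : ∀ i, 0 ≤ m1 i := fun i =>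
    mul_nonneg (hm i) (inv_nonneg.mpr (hps _ (hb1 i i.2).1.1).le)
  have hm2 : ∀ i, 0 ≤ m2 i := fun i =>
    mul_nonneg (hm i) (inv_nonneg.mpr (hpc _ (hb2 i i.2).1.1).le)
  have hsum : h - V = ∑ i, m1 i • b i + ∑ i, m2 i • b i := by
    rw [he, ← Fintype.sum_subtype_add_sum_subtype (fun i => a i ∈ T1) fun i => m i • a i]
    congr 1
    · refine Finset.sum_congr rfl fun i _ => ?_
      rw [(hb1 i i.2).2, smul_smul]
    · refine Finset.sum_congr rfl fun i _ => ?_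
      rw [(hb2 i i.2).2, smul_smul]
  have hle : ∀ (S : Set E) (c : E → ℝ) (J : Type) (_ : Fintype J) (μ : J → ℝ) (x : J → E),
      (∀ j, 0 ≤ μ j) → (∀ j, x j ∈ Act S c V) → ∀ W ∈ Kset S c,
      ⟪∑ j, μ j • x j, W⟫ ≤ ∑ j, μ j * c (x j) := by
    intro S c J _ μ x hμ hx W hW
    rw [sum_inner]
    refine Finset.sum_le_sum fun j _ => ?_
    rw [real_inner_smul_left, real_inner_comm]
    exact mul_le_mul_of_nonneg_left (hW _ (hx j).1) (hμ j)
  have heq : ∀ (S : Set E) (c : E → ℝ) (J : Type) (_ : Fintype J) (μ : J → ℝ) (x : J → E),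
      (∀ j, x j ∈ Act S c V) → ⟪∑ j, μ j • x j, V⟫ = ∑ j, μ j * c (x j) := by
    intro S c J _ μ x hx
    rw [sum_inner]
    refine Finset.sum_congr rfl fun j _ => ?_
    rw [real_inner_smul_left, real_inner_comm, (hx j).2]
  refine ⟨V, ∑ i, m1 i • b i, ∑ i, m2 i • b i, ⟨?_, hVm.1, hVm.2, fun W hW => ?_, fun W hW => ?_⟩,
    ⟨I1, inferInstance, m1, fun i => b i, hm1, fun i => (hb1 i i.2).1, rfl, ?_⟩,
    ⟨I2, inferInstance, m2, fun i => b i, hm2, fun i => (hb2 i i.2).1, rfl, ?_⟩⟩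
  · rw [add_assoc, ← hsum]; abel
  · rw [inner_sub_right, heq Ss bs I1 inferInstance m1 (fun i => b i) fun i => (hb1 i i.2).1]
    exact sub_nonpos.mpr (hle Ss bs I1 inferInstance m1 (fun i => b i) hm1
      (fun i => (hb1 i i.2).1) W hW)
  · rw [inner_sub_right, heq Sc bc I2 inferInstance m2 (fun i => b i) fun i => (hb2 i i.2).1]
    exact sub_nonpos.mpr (hle Sc bc I2 inferInstance m2 (fun i => b i) hm2
      (fun i => (hb2 i i.2).1) W hW)
  · exact supp_le ⟨V, hVm.1⟩ fun W hW =>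
      hle Ss bs I1 inferInstance m1 (fun i => b i) hm1 (fun i => (hb1 i i.2).1) W hW
  · exact supp_le ⟨V, hVm.2⟩ fun W hW =>
      hle Sc bc I2 inferInstance m2 (fun i => b i) hm2 (fun i => (hb2 i i.2).1) W hW

end pair

end Vale.Agent.P141.H704.Phi
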