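import Vale.Agent.P141.H408.SkelTI
import Vale.Agent.P141.H145.StageG
import Vale.Agent.P141.H576.GlueW

/-!
# P141, line (A): the stage sum over the `x0`, with labels

`stageS : H408.StageS`, from `H145.stageU` : three hubs by isometric padding, the sum over the
members by a relabelling of the nodes.
-/

namespace Vale.Agent.P141.H704.SS

open Finset Matrix
open Vale.Agent.P075 (Ix val phi res gramC gramR T3)
open Vale.Agent.P141.PL (Pt iv hs ix)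
open Vale.Agent.P141.PL.H588 (Xg hd smp)
open Vale.Agent.P141.PL.H804 (M2)
open Vale.Agent.P141.H103 (QW)
open Vale.Agent.P141.H585.PairCh (phs)
open Vale.Agent.P141.H677 (nf3)
open Vale.Agent.P141.H408 (rAB rBC rCA QL hdL StageC StageS)
open Vale.Agent.P141.H505.Skel (RPg StageG)

noncomputable section

/-! ### isometries -/

section iso

variable {n m : Type*} [Fintype n] [DecidableEq n] [Fintype m] [DecidableEq m]

theorem phi_iso {E : Matrix n m ℝ} (hE : Eᵀ * E = 1) {X : Matrix m m ℝ} (hX : X.PosSemidef) :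
    phi (E * X * Eᵀ) = E * phi X * Eᵀ := by
  have h1 : X * phi X = X - phi X := by
    have h := P075.mul_res hX
    unfold P075.phi
    rw [Matrix.mul_sub, Matrix.mul_one, h]
  have h2 : (1 + E * X * Eᵀ) * (1 - E * phi X * Eᵀ) = 1 := by
    have e1 : E * X * Eᵀ * (E * phi X * Eᵀ) = E * (X * phi X) * Eᵀ := by
      calc E * X * Eᵀ * (E * phi X * Eᵀ) = E * X * (Eᵀ * E) * phi X * Eᵀ := by
            simp only [Matrix.mul_assoc]
        _ = E * (X * phi X) * Eᵀ := by rw [hE, Matrix.mul_one]; simp only [Matrix.mul_assoc]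
    rw [Matrix.add_mul, Matrix.one_mul, Matrix.mul_sub, Matrix.mul_one, e1, h1, Matrix.mul_sub,
      Matrix.sub_mul]
    abel
  have h3 : (1 + E * X * Eᵀ)⁻¹ = 1 - E * phi X * Eᵀ := Matrix.inv_eq_right_inv h2
  change 1 - (1 + E * X * Eᵀ)⁻¹ = _
  rw [h3]
  abel

theorem proj_psd {E : Matrix n m ℝ} (hE : Eᵀ * E = 1) :
    ((1 : Matrix n n ℝ) - E * Eᵀ).PosSemidef := by
  have h : (1 : Matrix n n ℝ) - E * Eᵀ = (1 - E * Eᵀ)ᴴ * (1 - E * Eᵀ) := by
    have e1 : E * Eᵀ * (E * Eᵀ) = E * Eᵀ := by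
      calc E * Eᵀ * (E * Eᵀ) = E * (Eᵀ * E) * Eᵀ := by simp only [Matrix.mul_assoc]
        _ = E * Eᵀ := by rw [hE, Matrix.mul_one]
    rw [conjTranspose_eq_transpose_of_trivial, transpose_sub, transpose_one, transpose_mul,
      transpose_transpose]
    simp only [Matrix.mul_sub, Matrix.sub_mul, Matrix.mul_one, Matrix.one_mul, e1]
    abel
  rw [h]
  exact posSemidef_conjTranspose_mul_self _

theorem cap_iso {E : Matrix n m ℝ} (hE : Eᵀ * E = 1) {Y : Matrix m m ℝ}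
    (hY : (1 - Y).PosSemidef) : (1 - E * Y * Eᵀ).PosSemidef := by
  have h1 := hY.mul_mul_conjTranspose_same E
  rw [conjTranspose_eq_transpose_of_trivial] at h1
  have h2 := (proj_psd hE).add h1
  have e : (1 : Matrix n n ℝ) - E * Eᵀ + E * (1 - Y) * Eᵀ = 1 - E * Y * Eᵀ := by
    rw [Matrix.mul_sub, Matrix.mul_one, Matrix.sub_mul]
    abel
  rwa [e] at h2

/-- a cap for the rows is a cap for the columns -/
theorem cap_swap {μ : ℝ} (hμ : 0 ≤ μ) {B : Matrix n m ℝ}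
    (h : (1 - μ • (B * Bᵀ)).PosSemidef) : (1 - μ • (Bᵀ * B)).PosSemidef := by
  set N := (1 : Matrix m m ℝ) - μ • (Bᵀ * B) with hN
  have h1 : (Nᴴ * N).PosSemidef := posSemidef_conjTranspose_mul_self _
  have h2 : (μ • (Bᴴ * (1 - μ • (B * Bᵀ)) * B)).PosSemidef :=
    (h.conjTranspose_mul_mul_same B).smul hμ
  have h3 := h1.add h2
  have e : Nᴴ * N + μ • (Bᴴ * (1 - μ • (B * Bᵀ)) * B) = N := by
    have e1 : Nᴴ = N := by
      rw [conjTranspose_eq_transpose_of_trivial, hN, transpose_sub, transpose_one, transpose_smul,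
        transpose_mul, transpose_transpose]
    rw [e1, conjTranspose_eq_transpose_of_trivial, hN]
    simp only [Matrix.mul_sub, Matrix.sub_mul, Matrix.mul_one, Matrix.one_mul, Matrix.smul_mul,
      Matrix.mul_smul, smul_sub, smul_smul, Matrix.mul_assoc]
    abel
  rwa [e] at h3

end iso

/-! ### three hubs -/

section hubs

variable {α β γ : Type} [Fintype α] [DecidableEq α] [Fintype β] [DecidableEq β] [Fintype γ]
  [DecidableEq γ]

/-- inclusion of the first hub -/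
def E1 (α β γ : Type) [DecidableEq α] : Matrix (α ⊕ (β ⊕ γ)) α ℝ := fromRows 1 0

/-- inclusion of the second hub -/
def E2 (α β γ : Type) [DecidableEq β] : Matrix (α ⊕ (β ⊕ γ)) β ℝ := fromRows 0 (fromRows 1 0)

/-- inclusion of the third hub -/
def E3 (α β γ : Type) [DecidableEq γ] : Matrix (α ⊕ (β ⊕ γ)) γ ℝ := fromRows 0 (fromRows 0 1)

theorem E1_iso : (E1 α β γ)ᵀ * E1 α β γ = 1 := by
  unfold E1
  rw [transpose_fromRows, fromCols_mul_fromRows]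
  simp

theorem E2_iso : (E2 α β γ)ᵀ * E2 α β γ = 1 := by
  unfold E2
  rw [transpose_fromRows, fromCols_mul_fromRows, transpose_fromRows, fromCols_mul_fromRows]
  simp

theorem E3_iso : (E3 α β γ)ᵀ * E3 α β γ = 1 := by
  unfold E3
  rw [transpose_fromRows, fromCols_mul_fromRows, transpose_fromRows, fromCols_mul_fromRows]
  simp

/-- the three involutions together -/
def HH (r1 : Matrix α α ℝ) (r2 : Matrix β β ℝ) (r3 : Matrix γ γ ℝ) :
    Matrix (α ⊕ (β ⊕ γ)) (α ⊕ (β ⊕ γ)) ℝ := fromBlocks r1 0 0 (fromBlocks r2 0 0 r3)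

variable {r1 : Matrix α α ℝ} {r2 : Matrix β β ℝ} {r3 : Matrix γ γ ℝ}

theorem HH_symm (h1 : r1ᵀ = r1) (h2 : r2ᵀ = r2) (h3 : r3ᵀ = r3) :
    (HH r1 r2 r3)ᵀ = HH r1 r2 r3 := by
  unfold HH
  rw [fromBlocks_transpose, fromBlocks_transpose, h1, h2, h3]
  simp

theorem HH_sq (h1 : r1 * r1 = 1) (h2 : r2 * r2 = 1) (h3 : r3 * r3 = 1) :
    HH r1 r2 r3 * HH r1 r2 r3 = 1 := by
  unfold HH
  rw [fromBlocks_multiply, fromBlocks_multiply, h1, h2, h3]
  simp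

theorem E1_HH : (E1 α β γ)ᵀ * HH r1 r2 r3 * E1 α β γ = r1 := by
  unfold E1 HH
  rw [transpose_fromRows, fromCols_mul_fromBlocks, fromCols_mul_fromRows]
  simp

theorem E2_HH : (E2 α β γ)ᵀ * HH r1 r2 r3 * E2 α β γ = r2 := by
  unfold E2 HH
  rw [transpose_fromRows, fromCols_mul_fromBlocks, fromCols_mul_fromRows, transpose_fromRows]
  simp only [transpose_zero, transpose_one, Matrix.zero_mul, Matrix.mul_zero, zero_add, add_zero]
  rw [fromCols_mul_fromBlocks, fromCols_mul_fromRows]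
  simp

theorem E3_HH : (E3 α β γ)ᵀ * HH r1 r2 r3 * E3 α β γ = r3 := by
  unfold E3 HH
  rw [transpose_fromRows, fromCols_mul_fromBlocks, fromCols_mul_fromRows, transpose_fromRows]
  simp only [transpose_zero, transpose_one, Matrix.zero_mul, Matrix.mul_zero, zero_add, add_zero]
  rw [fromCols_mul_fromBlocks, fromCols_mul_fromRows]
  simp

end hubs

section pad

variable {n a b c : Type} [Fintype n] [DecidableEq n] [Fintype a] [DecidableEq a] [Fintype b]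
  [DecidableEq b] [Fintype c] [DecidableEq c] {Ea : Matrix n a ℝ} {Eb : Matrix n b ℝ}
  {Ec : Matrix n c ℝ} {r : Matrix n n ℝ}

omit [DecidableEq n] [Fintype b] [DecidableEq b] in
theorem gramC_pad (ha : Eaᵀ * Ea = 1) [Fintype b] (μ : ℝ) (F : Matrix a b ℝ) :
    gramC μ (Ea * F * Ebᵀ) = Eb * (μ • (Fᵀ * F)) * Ebᵀ := by
  unfold P075.gramC
  rw [transpose_mul, transpose_mul, transpose_transpose, Matrix.mul_smul, Matrix.smul_mul]
  congr 1
  calc Eb * (Fᵀ * Eaᵀ) * (Ea * F * Ebᵀ) = Eb * (Fᵀ * ((Eaᵀ * Ea) * F)) * Ebᵀ := by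
        simp only [Matrix.mul_assoc]
    _ = _ := by rw [ha, Matrix.one_mul]

omit [DecidableEq n] [DecidableEq a] in
theorem gramR_pad (hb : Ebᵀ * Eb = 1) (μ : ℝ) (F : Matrix a b ℝ) :
    gramR μ (Ea * F * Ebᵀ) = Ea * (μ • (F * Fᵀ)) * Eaᵀ := by
  unfold P075.gramR
  rw [transpose_mul, transpose_mul, transpose_transpose, Matrix.mul_smul, Matrix.smul_mul]
  congr 1
  calc Ea * F * Ebᵀ * (Eb * (Fᵀ * Eaᵀ)) = Ea * (F * ((Ebᵀ * Eb) * Fᵀ)) * Eaᵀ := by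
        simp only [Matrix.mul_assoc]
    _ = _ := by rw [hb, Matrix.one_mul]

/-- the pair at the middle hub -/
theorem M2_pad (ha : Eaᵀ * Ea = 1) (hb : Ebᵀ * Eb = 1) (hc : Ecᵀ * Ec = 1) {rb : Matrix b b ℝ}
    (hr : Ebᵀ * r * Eb = rb) {μ ν : ℝ} (hμ : 0 ≤ μ) (hν : 0 ≤ ν) (F : Matrix a b ℝ)
    (H : Matrix b c ℝ) :
    M2 r μ ν (Ea * F * Ebᵀ) (Eb * H * Ecᵀ) =
      (phi (μ • (Fᵀ * F)) * (rb * phi (ν • (H * Hᵀ)) * rb)).trace := by
  have p1 : (μ • (Fᵀ * F)).PosSemidef := by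
    have := posSemidef_conjTranspose_mul_self F
    rw [conjTranspose_eq_transpose_of_trivial] at this
    exact this.smul hμ
  have p2 : (ν • (H * Hᵀ)).PosSemidef := by
    have := posSemidef_self_mul_conjTranspose H
    rw [conjTranspose_eq_transpose_of_trivial] at this
    exact this.smul hν
  unfold PL.H804.M2
  rw [gramC_pad ha, gramR_pad hc, phi_iso hb p1, phi_iso hb p2]
  set P := phi (μ • (Fᵀ * F))
  set Q := phi (ν • (H * Hᵀ))
  have e : Eb * P * Ebᵀ * (r * (Eb * Q * Ebᵀ) * r) =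
      Eb * (P * ((Ebᵀ * r * Eb) * Q) * Ebᵀ * r) := by
    simp only [Matrix.mul_assoc]
  rw [e, hr, trace_mul_comm]
  have e2 : P * (rb * Q) * Ebᵀ * r * Eb = P * (rb * Q * rb) := by
    calc P * (rb * Q) * Ebᵀ * r * Eb = P * (rb * Q * (Ebᵀ * r * Eb)) := by
          simp only [Matrix.mul_assoc]
      _ = _ := by rw [hr]
  rw [e2]

omit [DecidableEq n] [DecidableEq a] [DecidableEq b] [DecidableEq c] in
theorem T3_pad {ra : Matrix a a ℝ} {rb : Matrix b b ℝ} {rc : Matrix c c ℝ}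
    (h1 : Eaᵀ * r * Ea = ra) (h2 : Ebᵀ * r * Eb = rb) (h3 : Ecᵀ * r * Ec = rc)
    (F : Matrix a b ℝ) (G : Matrix b c ℝ) (H : Matrix c a ℝ) :
    T3 r (Ea * F * Ebᵀ) (Eb * G * Ecᵀ) (Ec * H * Eaᵀ) = (ra * F * rb * G * rc * H).trace := by
  unfold P075.T3
  have e : r * (Ea * F * Ebᵀ) * r * (Eb * G * Ecᵀ) * r * (Ec * H * Eaᵀ) =
      r * Ea * (F * (Ebᵀ * r * Eb) * G * (Ecᵀ * r * Ec) * H * Eaᵀ) := by
    simp only [Matrix.mul_assoc]
  rw [e, h2, h3, trace_mul_comm]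
  have e2 : F * rb * G * rc * H * Eaᵀ * (r * Ea) = F * rb * G * rc * H * ra := by
    rw [← h1]
    simp only [Matrix.mul_assoc]
  rw [e2, trace_mul_comm]
  congr 1
  simp only [Matrix.mul_assoc]

end pad

/-! ### the matrices of a node -/

section node

variable {κ : Type} [Fintype κ] [DecidableEq κ]

theorem hd_symm' (k : ℕ) : (hd k)ᵀ = hd k := PL.H804.hd_symm k

theorem hd_sq' (k : ℕ) : hd k * hd k = 1 := PL.H804.hd_sq k

theorem hdL_symm (k : ℕ) : (hdL κ k)ᵀ = hdL κ k := by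
  ext p q
  rw [transpose_apply]
  unfold H408.hdL
  by_cases h : p.2 = q.2
  · rw [if_pos h, if_pos h.symm]
    have := congrFun (congrFun (hd_symm' k) q.1) p.1
    rw [transpose_apply] at this
    exact this.symm
  · rw [if_neg h, if_neg (Ne.symm h)]

theorem hdL_sq (k : ℕ) : hdL κ k * hdL κ k = 1 := by
  ext p q
  rw [Matrix.mul_apply, Fintype.sum_prod_type]
  unfold H408.hdL
  have h2 := congrFun (congrFun (hd_sq' k) p.1) q.1
  rw [Matrix.mul_apply] at h2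
  by_cases h : p.2 = q.2
  · have e : ∀ i : Ix k, (∑ l : κ, (if p.2 = (i, l).2 then hd k p.1 (i, l).1 else 0) *
        if (i, l).2 = q.2 then hd k (i, l).1 q.1 else 0) = hd k p.1 i * hd k i q.1 := by
      intro i
      rw [Finset.sum_eq_single p.2]
      · simp [h]
      · intro b _ hb
        simp [Ne.symm hb]
      · simp
    rw [sum_congr rfl fun i _ => e i, h2, Matrix.one_apply, Matrix.one_apply]
    by_cases h3 : p.1 = q.1
    · rw [if_pos h3, if_pos (Prod.ext h3 h)]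
    · rw [if_neg h3, if_neg fun h4 => h3 (congrArg Prod.fst h4)]
  · have e : ∀ i : Ix k, (∑ l : κ, (if p.2 = (i, l).2 then hd k p.1 (i, l).1 else 0) *
        if (i, l).2 = q.2 then hd k (i, l).1 q.1 else 0) = 0 := by
      intro i
      refine sum_eq_zero fun l _ => ?_
      by_cases h5 : p.2 = l
      · subst h5
        simp [h]
      · simp [h5]
    rw [sum_congr rfl fun i _ => e i, sum_const_zero, Matrix.one_apply,
      if_neg fun h4 => h (congrArg Prod.snd h4)]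

/-- rows `z`, columns `y` -/
def mA (k : ℕ) (A : ℤ → ℤ → ℝ) (m : Pt) : Matrix (Ix k) (Ix k) ℝ :=
  smp k k A (2 ^ k * m.1) (2 ^ k * m.2.1)

/-- rows `y`, columns `x` with the label -/
def mB (k : ℕ) (B : ℤ → ℤ → κ → ℝ) (m : Pt) : Matrix (Ix k) (Ix k × κ) ℝ := fun j p =>
  B (2 ^ k * m.2.2 + val k p.1) (2 ^ k * m.2.1 + val k j) p.2

/-- rows `x` with the label, columns `z` -/
def mC (k : ℕ) (C : ℤ → ℤ → κ → ℝ) (m : Pt) : Matrix (Ix k × κ) (Ix k) ℝ := fun p j =>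
  C (2 ^ k * m.1 + val k j) (2 ^ k * m.2.2 + val k p.1) p.2

theorem four (k : ℕ) : ((2 : ℝ) ^ k * 2 ^ k)⁻¹ = (4 ^ k)⁻¹ := by
  rw [← mul_pow]; norm_num

theorem gA (k : ℕ) (A : ℤ → ℤ → ℝ) (m : Pt) :
    Xg k k A m.1 m.2.1 = ((4 : ℝ) ^ k)⁻¹ • ((mA k A m)ᵀ * mA k A m) := by
  unfold PL.H588.Xg mA
  rw [four]

theorem gA' (k : ℕ) (A : ℤ → ℤ → ℝ) (m : Pt) :
    Xg k k (fun y z => A z y) m.2.1 m.1 = ((4 : ℝ) ^ k)⁻¹ • (mA k A m * (mA k A m)ᵀ) := by
  unfold PL.H588.Xg mA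
  rw [four]
  rfl

theorem gB (k : ℕ) (B : ℤ → ℤ → κ → ℝ) (m : Pt) :
    QW k k B (fun _ => 1) m.2.2 m.2.1 = ((4 : ℝ) ^ k)⁻¹ • (mB k B m * (mB k B m)ᵀ) := by
  ext j j'
  unfold H103.QW
  rw [four, Matrix.smul_apply, smul_eq_mul, Matrix.mul_apply, PL.H588.sum_iv,
    Fintype.sum_prod_type]
  congr 1
  refine sum_congr rfl fun i _ => ?_
  rw [one_mulVec]
  rfl

theorem gB' (k : ℕ) (B : ℤ → ℤ → κ → ℝ) (m : Pt) :
    QL k (fun y x => B x y) m.2.1 m.2.2 = ((4 : ℝ) ^ k)⁻¹ • ((mB k B m)ᵀ * mB k B m) := by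
  ext p q
  unfold H408.QL
  rw [four, Matrix.smul_apply, smul_eq_mul, Matrix.mul_apply, PL.H588.sum_iv]
  rfl

theorem gC (k : ℕ) (C : ℤ → ℤ → κ → ℝ) (m : Pt) :
    QW k k (fun x z => C z x) (fun _ => 1) m.2.2 m.1 =
      ((4 : ℝ) ^ k)⁻¹ • ((mC k C m)ᵀ * mC k C m) := by
  ext j j'
  unfold H103.QW
  rw [four, Matrix.smul_apply, smul_eq_mul, Matrix.mul_apply, PL.H588.sum_iv,
    Fintype.sum_prod_type]
  congr 1
  refine sum_congr rfl fun i _ => ?_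
  rw [one_mulVec]
  rfl

theorem gC' (k : ℕ) (C : ℤ → ℤ → κ → ℝ) (m : Pt) :
    QL k C m.1 m.2.2 = ((4 : ℝ) ^ k)⁻¹ • (mC k C m * (mC k C m)ᵀ) := by
  ext p q
  unfold H408.QL
  rw [four, Matrix.smul_apply, smul_eq_mul, Matrix.mul_apply, PL.H588.sum_iv]
  rfl

theorem tr3 {a b c : Type*} [Fintype a] [Fintype b] [Fintype c] (X : Matrix a b ℝ)
    (Y : Matrix b c ℝ) (Z : Matrix c a ℝ) :
    (X * (Y * Z)).trace = ∑ i, ∑ j, X i j * ∑ p, Y j p * Z p i := rfl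

/-- the trace form of the node form -/
theorem nf3_tr {k : ℕ} (hk : 1 ≤ k) (A : ℤ → ℤ → ℝ) (B C : ℤ → ℤ → κ → ℝ) (m : Pt) :
    nf3 A B C k m = ((2 : ℝ) ^ k)⁻¹ *
      (hd k * mA k A m * hd k * mB k B m * hdL κ k * mC k C m).trace := by
  unfold H677.nf3
  congr 1
  have h1 : hdL κ k = diagonal fun p : Ix k × κ => hs k (2 ^ k * m.2.2 + val k p.1) := by
    ext p q
    unfold H408.hdL
    rw [H576.hd_eq hk m.2.2]
    by_cases h : p = q
    · subst h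
      simp
    · rw [diagonal_apply_ne _ h]
      by_cases h2 : p.2 = q.2
      · rw [if_pos h2, diagonal_apply_ne]
        exact fun h3 => h (Prod.ext h3 h2)
      · rw [if_neg h2]
  rw [h1]
  have h2 : hd k * mA k A m * hd k * mB k B m * (diagonal fun p : Ix k × κ =>
      hs k (2 ^ k * m.2.2 + val k p.1)) * mC k C m =
      ((diagonal fun i : Ix k => hs k (2 ^ k * m.1 + val k i)) * mA k A m) *
      (((diagonal fun i : Ix k => hs k (2 ^ k * m.2.1 + val k i)) * mB k B m) *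
      ((diagonal fun p : Ix k × κ => hs k (2 ^ k * m.2.2 + val k p.1)) * mC k C m)) := by
    rw [← H576.hd_eq hk m.1, ← H576.hd_eq hk m.2.1]
    simp only [Matrix.mul_assoc]
  rw [h2, tr3]
  simp only [Matrix.diagonal_mul, Fintype.sum_prod_type]
  rw [PL.H588.sum_iv]
  refine sum_congr rfl fun i _ => ?_
  rw [PL.H588.sum_iv]
  simp only [PL.H588.sum_iv, mul_sum]
  rw [sum_comm]
  refine sum_congr rfl fun j _ => ?_
  refine sum_congr rfl fun l _ => ?_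
  unfold dotProduct
  rw [mul_sum, mul_sum]
  refine sum_congr rfl fun q _ => ?_
  unfold mA mB mC PL.H588.smp
  ring

end node

/-! ### The pairs and the caps -/

section pairs

variable {κ : Type} [Fintype κ] [DecidableEq κ]

/-- index type of the three hubs -/
abbrev Ih (κ : Type) (k : ℕ) : Type := Ix k ⊕ (Ix k ⊕ (Ix k × κ))

/-- the three signs -/
def rH (κ : Type) [DecidableEq κ] (k : ℕ) : Matrix (Ih κ k) (Ih κ k) ℝ :=
  HH (hd k) (hd k) (hdL κ k)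

theorem rH_symm (k : ℕ) : (rH κ k)ᵀ = rH κ k := HH_symm (hd_symm' k) (hd_symm' k) (hdL_symm k)

theorem rH_sq (k : ℕ) : rH κ k * rH κ k = 1 := HH_sq (hd_sq' k) (hd_sq' k) (hdL_sq k)

/-- padded matrices -/
def pA (κ : Type) [DecidableEq κ] (k : ℕ) (A : ℤ → ℤ → ℝ) (m : Pt) :
    Matrix (Ih κ k) (Ih κ k) ℝ :=
  E1 (Ix k) (Ix k) (Ix k × κ) * mA k A m * (E2 (Ix k) (Ix k) (Ix k × κ))ᵀ

/-- padded matrices -/
def pB (k : ℕ) (B : ℤ → ℤ → κ → ℝ) (m : Pt) : Matrix (Ih κ k) (Ih κ k) ℝ :=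
  E2 (Ix k) (Ix k) (Ix k × κ) * mB k B m * (E3 (Ix k) (Ix k) (Ix k × κ))ᵀ

/-- padded matrices -/
def pC (k : ℕ) (C : ℤ → ℤ → κ → ℝ) (m : Pt) : Matrix (Ih κ k) (Ih κ k) ℝ :=
  E3 (Ix k) (Ix k) (Ix k × κ) * mC k C m * (E1 (Ix k) (Ix k) (Ix k × κ))ᵀ

theorem phs_tr {n : Type*} [Fintype n] [DecidableEq n] (r X Y : Matrix n n ℝ) (x y : ℝ)
    (P Q : Matrix n n ℝ) (w : ℝ) (hX : X = w • P) (hY : Y = w • Q) :
    (phs x X * (r * phs y Y * r)).trace =
      x * y * (phi ((x⁻¹ * w) • P) * (r * phi ((y⁻¹ * w) • Q) * r)).trace := by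
  unfold H585.PairCh.phs
  rw [hX, hY, smul_smul, smul_smul]
  simp only [Matrix.mul_smul, Matrix.smul_mul, trace_smul, smul_eq_mul]
  ring

theorem rAB_eq (A : ℤ → ℤ → ℝ) (B : ℤ → ℤ → κ → ℝ) (k : ℕ) (m : Pt) (x y : ℝ) :
    x ^ 2 * y ^ 2 * (4 ^ k * M2 (rH κ k) ((x ^ 2)⁻¹ * (4 ^ k)⁻¹) ((y ^ 2)⁻¹ * (4 ^ k)⁻¹)
      (pA κ k A m) (pB k B m)) = rAB A B k m x y := by
  unfold pA pB rH H408.rAB
  rw [M2_pad E1_iso E2_iso E3_iso E2_HH (by positivity) (by positivity),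
    phs_tr _ _ _ _ _ _ _ _ (gA k A m) (gB k B m)]
  ring

theorem rBC_eq (B C : ℤ → ℤ → κ → ℝ) (k : ℕ) (m : Pt) (y z : ℝ) :
    y ^ 2 * z ^ 2 * (4 ^ k * M2 (rH κ k) ((y ^ 2)⁻¹ * (4 ^ k)⁻¹) ((z ^ 2)⁻¹ * (4 ^ k)⁻¹)
      (pB k B m) (pC k C m)) = rBC B C k m y z := by
  unfold pB pC rH H408.rBC
  rw [M2_pad E2_iso E3_iso E1_iso E3_HH (by positivity) (by positivity),
    phs_tr _ _ _ _ _ _ _ _ (gB' k B m) (gC' k C m)]
  ring

theorem rCA_eq (C : ℤ → ℤ → κ → ℝ) (A : ℤ → ℤ → ℝ) (k : ℕ) (m : Pt) (z x : ℝ) :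
    z ^ 2 * x ^ 2 * (4 ^ k * M2 (rH κ k) ((z ^ 2)⁻¹ * (4 ^ k)⁻¹) ((x ^ 2)⁻¹ * (4 ^ k)⁻¹)
      (pC k C m) (pA κ k A m)) = rCA C A k m z x := by
  unfold pA pC rH H408.rCA
  rw [M2_pad E3_iso E1_iso E2_iso E1_HH (by positivity) (by positivity),
    phs_tr _ _ _ _ _ _ _ _ (gC k C m) (gA' k A m)]
  ring

theorem T3_eq {k : ℕ} (hk : 1 ≤ k) (A : ℤ → ℤ → ℝ) (B C : ℤ → ℤ → κ → ℝ) (m : Pt) :
    (2 ^ k : ℝ)⁻¹ * T3 (rH κ k) (pA κ k A m) (pB k B m) (pC k C m) = nf3 A B C k m := by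
  unfold pA pB pC rH
  rw [T3_pad E1_HH E2_HH E3_HH, nf3_tr hk]

theorem cap_scale {n : Type*} [Fintype n] [DecidableEq n] {X P : Matrix n n ℝ} {c w : ℝ}
    (hc : 0 < c) (hX : X = w • P) (h : ((c ^ 2) • (1 : Matrix n n ℝ) - X).PosSemidef) :
    (1 - ((c ^ 2)⁻¹ * w) • P).PosSemidef := by
  have h1 := h.smul (by positivity : 0 ≤ (c ^ 2)⁻¹)
  rw [hX, smul_sub, smul_smul, smul_smul, inv_mul_cancel₀ (by positivity), one_smul] at h1
  exact h1

theorem capA_eq {A : ℤ → ℤ → ℝ} {k : ℕ} {m : Pt} {c : ℝ} (hc : 0 < c)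
    (h : ((c ^ 2) • 1 - Xg k k A m.1 m.2.1).PosSemidef) :
    (1 - gramC ((c ^ 2)⁻¹ * (4 ^ k)⁻¹) (pA κ k A m)).PosSemidef := by
  unfold pA
  rw [gramC_pad E1_iso]
  exact cap_iso E2_iso (cap_scale hc (gA k A m) h)

theorem capB_eq {B : ℤ → ℤ → κ → ℝ} {k : ℕ} {m : Pt} {c : ℝ} (hc : 0 < c)
    (h : ((c ^ 2) • 1 - QW k k B (fun _ => 1) m.2.2 m.2.1).PosSemidef) :
    (1 - gramC ((c ^ 2)⁻¹ * (4 ^ k)⁻¹) (pB k B m)).PosSemidef := by
  unfold pB
  rw [gramC_pad E2_iso]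
  exact cap_iso E3_iso (cap_swap (by positivity) (cap_scale hc (gB k B m) h))

theorem capC_eq {C : ℤ → ℤ → κ → ℝ} {k : ℕ} {m : Pt} {c : ℝ} (hc : 0 < c)
    (h : ((c ^ 2) • 1 - QW k k (fun x z => C z x) (fun _ => 1) m.2.2 m.1).PosSemidef) :
    (1 - gramC ((c ^ 2)⁻¹ * (4 ^ k)⁻¹) (pC k C m)).PosSemidef := by
  unfold pC
  rw [gramC_pad E3_iso]
  exact cap_iso E1_iso (cap_scale hc (gC k C m) h)

end pairs

/-! ### The stage -/

theorem rpow_quarter_le {x τ : ℝ} (hx : 0 < x) (hxt : x ≤ τ) : (τ / x) ^ (1 / 4 : ℝ) ≤ √(τ / x) := by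
  rw [Real.sqrt_eq_rpow]
  exact Real.rpow_le_rpow_of_exponent_le ((one_le_div hx).2 hxt) (by norm_num)

theorem stageC : StageC 81 := by
  intro κ _ _ J X K s A B C cA cB cC θ τ P₀ PA PB κ' L₀ hcA hA hcB hB hcC hθ hP₀ hPA hPB hκ' hL
    capA capB capC hAB hBC hCA hT
  obtain ⟨e, he⟩ : ∃ e : (Σ _ : X, Pt) → Pt, Function.Injective e := by
    obtain ⟨f, hf⟩ := exists_injective_nat (Σ _ : X, Pt)
    refine ⟨fun q => ((f q : ℤ), 0, 0), fun a b h => hf ?_⟩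
    have h2 : ((f a : ℕ) : ℤ) = ((f b : ℕ) : ℤ) := congrArg Prod.fst h
    exact_mod_cast h2
  set s' : ℕ → Finset Pt := fun k => (X.attach.sigma fun i => s i k).map ⟨e, he⟩ with hs'
  set FA : ∀ k, Pt → Matrix (Ih κ k) (Ih κ k) ℝ := fun k =>
    Function.extend e (fun q => pA κ k (A q.1 k q.2) q.2) 0 with hFA
  set FB : ∀ k, Pt → Matrix (Ih κ k) (Ih κ k) ℝ := fun k =>
    Function.extend e (fun q => pB k (B q.1 k q.2) q.2) 0 with hFB
  set FC : ∀ k, Pt → Matrix (Ih κ k) (Ih κ k) ℝ := fun k =>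
    Function.extend e (fun q => pC k (C q.1 k q.2) q.2) 0 with hFC
  have eA : ∀ k q, FA k (e q) = pA κ k (A q.1 k q.2) q.2 := fun k q => he.extend_apply _ _ q
  have eB : ∀ k q, FB k (e q) = pB k (B q.1 k q.2) q.2 := fun k q => he.extend_apply _ _ q
  have eC : ∀ k q, FC k (e q) = pC k (C q.1 k q.2) q.2 := fun k q => he.extend_apply _ _ q
  have hsum : ∀ (f : ℕ → Pt → ℝ) (g : J → ℕ → Pt → ℝ),
      (∀ k ∈ Icc 1 K, ∀ q : (Σ _ : X, Pt), f k (e q) = g q.1 k q.2) →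
      ∑ k ∈ Icc 1 K, ∑ p ∈ s' k, f k p = ∑ i ∈ X, ∑ k ∈ Icc 1 K, ∑ m ∈ s i k, g i k m := by
    intro f g h
    rw [sum_comm (s := X)]
    refine sum_congr rfl fun k hk => ?_
    rw [hs', sum_map, sum_sigma, ← sum_attach X fun i => ∑ m ∈ s i k, g i k m]
    exact sum_congr rfl fun i _ => sum_congr rfl fun m _ => h k hk ⟨i, m⟩
  have hmem : ∀ k, ∀ p ∈ s' k, ∃ i ∈ X, ∃ m ∈ s i k, FA k p = pA κ k (A i k m) m ∧
      FB k p = pB k (B i k m) m ∧ FC k p = pC k (C i k m) m := by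
    intro k p hp
    rw [hs', mem_map] at hp
    obtain ⟨q, hq, rfl⟩ := hp
    rw [mem_sigma] at hq
    exact ⟨q.1, q.1.2, q.2, hq.2, eA k q, eB k q, eC k q⟩
  have rAB' : ∀ x y, RPg (rH κ) K s' x y FA FB =
      ∑ i ∈ X, ∑ k ∈ Icc 1 K, ∑ m ∈ s i k, rAB (A i k m) (B i k m) k m x y := by
    intro x y
    refine hsum _ (fun i k m => rAB (A i k m) (B i k m) k m x y) fun k _ q => ?_
    rw [eA, eB, rAB_eq]
  have rBC' : ∀ x y, RPg (rH κ) K s' x y FB FC =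
      ∑ i ∈ X, ∑ k ∈ Icc 1 K, ∑ m ∈ s i k, rBC (B i k m) (C i k m) k m x y := by
    intro x y
    refine hsum _ (fun i k m => rBC (B i k m) (C i k m) k m x y) fun k _ q => ?_
    rw [eB, eC, rBC_eq]
  have rCA' : ∀ x y, RPg (rH κ) K s' x y FC FA =
      ∑ i ∈ X, ∑ k ∈ Icc 1 K, ∑ m ∈ s i k, rCA (C i k m) (A i k m) k m x y := by
    intro x y
    refine hsum _ (fun i k m => rCA (C i k m) (A i k m) k m x y) fun k _ q => ?_
    rw [eC, eA, rCA_eq]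
  have slack : ∀ {x P : ℝ}, 0 ≤ P → 0 < x → x ≤ τ →
      P * (x ^ 2 * (τ / x) ^ (1 / 4 : ℝ)) ≤ P * (x ^ 2 * √(τ / x)) := by
    intro x P hP hx hxt
    exact mul_le_mul_of_nonneg_left (mul_le_mul_of_nonneg_left (rpow_quarter_le hx hxt)
      (by positivity)) hP
  have main := H145.stageG (ι := Ih κ) (rH κ) K s' cA cB cC FA FB FC rH_symm rH_sq hcA hcB hcC
    (fun k hk p hp => by
      obtain ⟨i, hi, m, hm, h1, _, _⟩ := hmem k p hp
      rw [h1]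
      exact capA_eq hcA (capA i hi k hk m hm))
    (fun k hk p hp => by
      obtain ⟨i, hi, m, hm, _, h2, _⟩ := hmem k p hp
      rw [h2]
      exact capB_eq hcB (capB i hi k hk m hm))
    (fun k hk p hp => by
      obtain ⟨i, hi, m, hm, _, _, h3⟩ := hmem k p hp
      rw [h3]
      exact capC_eq hcC (capC i hi k hk m hm))
    hθ hA hB hP₀ hPA hPB hκ'
    (fun x hx hxt => by
      rw [rAB']
      exact (hAB x hx hxt).trans (slack hP₀ hx hxt))
    (fun x hx hxt => by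
      rw [rBC']
      exact (hBC x hx hxt).trans (slack hPB hx hxt))
    (fun x hx hxt => by
      rw [rCA']
      exact (hCA x hx hxt).trans (slack hPA hx hxt))
    (fun x hx hxt => by
      rw [rBC', rCA']
      exact hT x hx hxt)
    hL
  have e1 : ∑ k ∈ Icc 1 K, ∑ p ∈ s' k, |(2 ^ k : ℝ)⁻¹ * T3 (rH κ k) (FA k p) (FB k p) (FC k p)| =
      ∑ i ∈ X, ∑ k ∈ Icc 1 K, ∑ m ∈ s i k, |nf3 (A i k m) (B i k m) (C i k m) k m| := by
    refine hsum _ (fun i k m => |nf3 (A i k m) (B i k m) (C i k m) k m|) fun k hk q => ?_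
    rw [eA, eB, eC, T3_eq (mem_Icc.1 hk).1]
  rw [e1] at main
  have hn : 0 ≤ κ' * (L₀ : ℝ) := by positivity
  linarith

/-- **The stage sum over the `x0`, with labels.** -/
theorem stageS : StageS := ⟨81, by norm_num, stageC⟩

end

end Vale.Agent.P141.H704.SS
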